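import Mathlib

/-!
# Resampling operators on a product space (row 342, #1280 (1))

`π` is a law on `X × Y`, `x : J → X`, `y : J → Y` are strings drawn from the product law.
`cond π S P x y` resamples the coordinates `x i`, `i ∈ S`, of the argument of `P` from `π(· | y i)`:
it depends only on `x` off `S` and on `y` on `S`.
For the second player use `cond (swapπ π) B Q y x`.
-/

namespace Crest.Agent.ParRep.ResampleH24

open Finset Function

noncomputable section

variable {J X Y E 𝔸 𝔹 : Type*} [Fintype J] [DecidableEq J] [Fintype X] [DecidableEq X]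
  [Fintype Y] [DecidableEq Y] [AddCommGroup E] [Module ℝ E]

/-- The marginal of `π` on the second coordinate. -/
def margY (π : X → Y → ℝ) (y : Y) : ℝ := ∑ x, π x y

/-- The conditional law `π(u | y)`; it is `0` if `y` has no mass. -/
def condP (π : X → Y → ℝ) (y : Y) (u : X) : ℝ := π u y / margY π y

/-- Swap the two coordinates of a law. -/
def swapπ (π : X → Y → ℝ) : Y → X → ℝ := fun y x => π x y

/-- One coordinate of the resampling kernel. -/
def kern (π : X → Y → ℝ) (S : Finset J) (x : J → X) (y : J → Y) (j : J) (u : X) : ℝ :=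
  if j ∈ S then condP π (y j) u else if u = x j then 1 else 0

/-- The resampling operator `Cond^y_S`. -/
def cond (π : X → Y → ℝ) (S : Finset J) (P : (J → X) → E) (x : J → X) (y : J → Y) : E :=
  ∑ u : J → X, (∏ j, kern π S x y j (u j)) • P u

/-- Expectation under the product law. -/
def Ex (π : X → Y → ℝ) (G : (J → X) → (J → Y) → E) : E :=
  ∑ x : J → X, ∑ y : J → Y, (∏ j, π (x j) (y j)) • G x y

omit [Fintype J] [DecidableEq J] [Fintype X] [DecidableEq X] [Fintype Y] [DecidableEq Y]
  [AddCommGroup E] [Module ℝ E] in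
@[simp] lemma swapπ_apply (π : X → Y → ℝ) (y : Y) (x : X) : swapπ π y x = π x y := rfl

lemma margY_nonneg {π : X → Y → ℝ} (hπ : ∀ x y, 0 ≤ π x y) (y : Y) : 0 ≤ margY π y :=
  Finset.sum_nonneg fun _ _ => hπ _ _

lemma condP_nonneg {π : X → Y → ℝ} (hπ : ∀ x y, 0 ≤ π x y) (y : Y) (u : X) : 0 ≤ condP π y u :=
  div_nonneg (hπ _ _) (margY_nonneg hπ y)

lemma sum_condP {π : X → Y → ℝ} {y : Y} (hy : margY π y ≠ 0) : ∑ u, condP π y u = 1 := by
  unfold condP
  rw [← Finset.sum_div]
  exact div_self hy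

lemma margY_pos_of_pos {π : X → Y → ℝ} (hπ : ∀ x y, 0 ≤ π x y) {x : X} {y : Y} (h : π x y ≠ 0) :
    margY π y ≠ 0 := by
  have h1 : π x y ≤ margY π y :=
    Finset.single_le_sum (f := fun u => π u y) (fun _ _ => hπ _ _) (Finset.mem_univ x)
  have h2 : 0 < π x y := lt_of_le_of_ne (hπ _ _) (Ne.symm h)
  exact (lt_of_lt_of_le h2 h1).ne'

/-! ### Basic facts on `cond` -/

lemma cond_empty (π : X → Y → ℝ) (P : (J → X) → E) (x : J → X) (y : J → Y) :
    cond π ∅ P x y = P x := by
  unfold cond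
  rw [Finset.sum_eq_single x]
  · simp [kern]
  · intro u _ hu
    have : ∃ j, u j ≠ x j := by
      by_contra h
      exact hu (funext fun j => by_contra fun hj => h ⟨j, hj⟩)
    obtain ⟨j, hj⟩ := this
    have : (∏ i, kern π (∅ : Finset J) x y i (u i)) = 0 :=
      Finset.prod_eq_zero (Finset.mem_univ j) (by simp [kern, hj])
    simp [this]
  · simp

lemma cond_update_x {π : X → Y → ℝ} {S : Finset J} {j : J} (hj : j ∈ S) (P : (J → X) → E)
    (x : J → X) (y : J → Y) (w : X) : cond π S P (update x j w) y = cond π S P x y := by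
  unfold cond
  refine Finset.sum_congr rfl fun u _ => ?_
  congr 1
  refine Finset.prod_congr rfl fun i _ => ?_
  unfold kern
  split_ifs with h1 h2 h3 h3
  · rfl
  · rfl
  · exfalso
    have hij : i ≠ j := fun h => h1 (h ▸ hj)
    rw [update_of_ne hij] at h2
    exact h3 h2
  · exfalso
    have hij : i ≠ j := fun h => h1 (h ▸ hj)
    rw [update_of_ne hij] at h2
    exact h2 h3
  · rfl

lemma cond_update_y {π : X → Y → ℝ} {S : Finset J} {j : J} (hj : j ∉ S) (P : (J → X) → E)
    (x : J → X) (y : J → Y) (v : Y) : cond π S P x (update y j v) = cond π S P x y := by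
  unfold cond
  refine Finset.sum_congr rfl fun u _ => ?_
  congr 1
  refine Finset.prod_congr rfl fun i _ => ?_
  unfold kern
  by_cases h1 : i ∈ S
  · have hij : i ≠ j := fun h => hj (h ▸ h1)
    simp [h1, update_of_ne hij]
  · simp [h1]

/-- The key step: `Cond^y_{S+j} P = E_{w ~ π(·|y_j)} Cond^y_S P (x_j := w)`. -/
lemma cond_insert (π : X → Y → ℝ) {S : Finset J} {j : J} (hj : j ∉ S) (P : (J → X) → E)
    (x : J → X) (y : J → Y) :
    cond π (insert j S) P x y = ∑ w, condP π (y j) w • cond π S P (update x j w) y := by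
  unfold cond
  simp_rw [Finset.smul_sum, smul_smul]
  rw [Finset.sum_comm]
  refine Finset.sum_congr rfl fun u _ => ?_
  rw [← Finset.sum_smul]
  congr 1
  -- the coefficient
  have key : ∀ w : X, (∏ i, kern π S (update x j w) y i (u i)) =
      (if u j = w then 1 else 0) * ∏ i ∈ Finset.univ.erase j, kern π S x y i (u i) := by
    intro w
    rw [← Finset.mul_prod_erase Finset.univ _ (Finset.mem_univ j)]
    congr 1
    · simp [kern, hj]
    · refine Finset.prod_congr rfl fun i hi => ?_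
      have hij : i ≠ j := Finset.ne_of_mem_erase hi
      unfold kern
      by_cases h1 : i ∈ S
      · simp [h1]
      · simp [h1, update_of_ne hij]
  simp_rw [key]
  have h2 : (∏ i, kern π (insert j S) x y i (u i)) =
      condP π (y j) (u j) * ∏ i ∈ Finset.univ.erase j, kern π S x y i (u i) := by
    rw [← Finset.mul_prod_erase Finset.univ _ (Finset.mem_univ j)]
    congr 1
    · simp [kern]
    · refine Finset.prod_congr rfl fun i hi => ?_
      have hij : i ≠ j := Finset.ne_of_mem_erase hi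
      unfold kern
      by_cases h1 : i ∈ S
      · simp [h1]
      · simp [h1, hij]
  rw [h2]
  simp only [mul_ite, mul_zero, ite_mul, zero_mul]
  simp

/-! ### Expectations -/

lemma Ex_swap (π : X → Y → ℝ) (G : (J → X) → (J → Y) → E) :
    Ex (swapπ π) (fun y x => G x y) = Ex π G := by
  unfold Ex swapπ
  rw [Finset.sum_comm]

lemma Ex_congr_supp {π : X → Y → ℝ} {G H : (J → X) → (J → Y) → E}
    (h : ∀ x y, (∀ j, π (x j) (y j) ≠ 0) → G x y = H x y) : Ex π G = Ex π H := by
  unfold Ex
  refine Finset.sum_congr rfl fun x _ => Finset.sum_congr rfl fun y _ => ?_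
  by_cases hxy : ∀ j, π (x j) (y j) ≠ 0
  · rw [h x y hxy]
  · obtain ⟨j, hj⟩ := not_forall.mp hxy
    have : (∏ j, π (x j) (y j)) = 0 := Finset.prod_eq_zero (Finset.mem_univ j) (not_not.mp hj)
    simp [this]

lemma Ex_le_supp {π : X → Y → ℝ} (hπ : ∀ x y, 0 ≤ π x y) {G H : (J → X) → (J → Y) → ℝ}
    (h : ∀ x y, (∀ j, π (x j) (y j) ≠ 0) → G x y ≤ H x y) : Ex π G ≤ Ex π H := by
  unfold Ex
  refine Finset.sum_le_sum fun x _ => Finset.sum_le_sum fun y _ => ?_
  by_cases hxy : ∀ j, π (x j) (y j) ≠ 0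
  · exact mul_le_mul_of_nonneg_left (h x y hxy) (Finset.prod_nonneg fun _ _ => hπ _ _)
  · obtain ⟨j, hj⟩ := not_forall.mp hxy
    have : (∏ j, π (x j) (y j)) = 0 := Finset.prod_eq_zero (Finset.mem_univ j) (not_not.mp hj)
    simp [this]

lemma Ex_add (π : X → Y → ℝ) (G H : (J → X) → (J → Y) → E) :
    Ex π (fun x y => G x y + H x y) = Ex π G + Ex π H := by
  unfold Ex
  simp only [smul_add, Finset.sum_add_distrib]

lemma Ex_sub (π : X → Y → ℝ) (G H : (J → X) → (J → Y) → E) :
    Ex π (fun x y => G x y - H x y) = Ex π G - Ex π H := by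
  unfold Ex
  simp only [smul_sub, Finset.sum_sub_distrib]

lemma Ex_smul (π : X → Y → ℝ) (c : ℝ) (G : (J → X) → (J → Y) → E) :
    Ex π (fun x y => c • G x y) = c • Ex π G := by
  unfold Ex
  simp only [Finset.smul_sum, smul_comm c]

lemma Ex_const_mul (π : X → Y → ℝ) (c : ℝ) (G : (J → X) → (J → Y) → ℝ) :
    Ex π (fun x y => c * G x y) = c * Ex π G := by
  simpa [smul_eq_mul] using Ex_smul π c G

/-- Total mass of the product law. -/
lemma Ex_one {π : X → Y → ℝ} (hπ1 : ∑ x, ∑ y, π x y = 1) :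
    Ex π (J := J) (fun _ _ => (1 : ℝ)) = 1 := by
  unfold Ex
  simp only [smul_eq_mul, mul_one]
  rw [← Fintype.sum_prod_type']
  have h1 : ∑ z : X × Y, π z.1 z.2 = 1 := by
    rw [Fintype.sum_prod_type]; exact hπ1
  have h2 : ∏ _j : J, ∑ z : X × Y, π z.1 z.2 = 1 := by
    simp [h1]
  rw [← h2, Finset.prod_univ_sum]
  simp only [Fintype.piFinset_univ]
  exact (Fintype.sum_equiv (Equiv.arrowProdEquivProdArrow J (fun _ => X) (fun _ => Y)).symm _ _ fun z => by
    simp [Equiv.arrowProdEquivProdArrow])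

/-- **Resampling preserves the law.** -/
lemma Ex_resample {π : X → Y → ℝ} (hπ : ∀ x y, 0 ≤ π x y) (j : J)
    (G : (J → X) → (J → Y) → E) :
    Ex π (fun x y => ∑ w, condP π (y j) w • G (update x j w) y) = Ex π G := by
  unfold Ex
  have h0 : ∀ x : J → X, ∑ y : J → Y, (∏ i, π (x i) (y i)) • ∑ w, condP π (y j) w • G (update x j w) y
      = ∑ y : J → Y, ∑ w, ((∏ i, π (x i) (y i)) * condP π (y j) w) • G (update x j w) y := by
    intro x
    refine Finset.sum_congr rfl fun y _ => ?_
    rw [Finset.smul_sum]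
    simp_rw [smul_smul]
  simp_rw [h0]
  rw [Finset.sum_comm]
  rw [Finset.sum_comm (f := fun x y => (∏ i, π (x i) (y i)) • G x y)]
  refine Finset.sum_congr rfl fun y _ => ?_
  -- fix `y`; use the involution `(x, w) ↦ (update x j w, x j)`
  let e : (J → X) × X ≃ (J → X) × X :=
    { toFun := fun p => (update p.1 j p.2, p.1 j)
      invFun := fun p => (update p.1 j p.2, p.1 j)
      left_inv := fun p => by
        ext i
        · by_cases h : i = j
          · subst h; simp
          · simp [update_of_ne h]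
        · simp
      right_inv := fun p => by
        ext i
        · by_cases h : i = j
          · subst h; simp
          · simp [update_of_ne h]
        · simp }
  rw [← Fintype.sum_prod_type' (f := fun x w => ((∏ i, π (x i) (y i)) * condP π (y j) w) • G (update x j w) y)]
  rw [← e.sum_comp]
  rw [Fintype.sum_prod_type]
  refine Finset.sum_congr rfl fun x _ => ?_
  simp only [e, Equiv.coe_fn_mk]
  have hfac2 : ∀ w : X, ((∏ i, π (update x j w i) (y i)) * condP π (y j) (x j)) •
      G (update (update x j w) j (x j)) y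
      = ((∏ i, π (x i) (y i)) * condP π (y j) w) • G x y := by
    intro w
    rw [update_idem, update_eq_self]
    congr 1
    have h1 : (∏ i, π (update x j w i) (y i)) =
        π w (y j) * ∏ i ∈ Finset.univ.erase j, π (x i) (y i) := by
      rw [← Finset.mul_prod_erase Finset.univ _ (Finset.mem_univ j)]
      simp only [update_self]
      congr 1
      refine Finset.prod_congr rfl fun i hi => ?_
      rw [update_of_ne (Finset.ne_of_mem_erase hi)]
    have h2 : (∏ i, π (x i) (y i)) =
        π (x j) (y j) * ∏ i ∈ Finset.univ.erase j, π (x i) (y i) := by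
      exact (Finset.mul_prod_erase Finset.univ (fun i => π (x i) (y i)) (Finset.mem_univ j)).symm
    rw [h1, h2]
    unfold condP
    ring
  simp_rw [hfac2]
  simp_rw [mul_smul]
  rw [← Finset.smul_sum, ← Finset.sum_smul]
  by_cases hx : ∏ i, π (x i) (y i) = 0
  · simp [hx]
  · have hjx : π (x j) (y j) ≠ 0 := fun h0 => hx (Finset.prod_eq_zero (Finset.mem_univ j) h0)
    rw [sum_condP (margY_pos_of_pos hπ hjx), one_smul]

/-! ### Membership in a convex set -/

lemma kern_nonneg {π : X → Y → ℝ} (hπ : ∀ x y, 0 ≤ π x y) (S : Finset J) (x : J → X) (y : J → Y)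
    (j : J) (u : X) : 0 ≤ kern π S x y j (u) := by
  unfold kern
  split_ifs
  · exact condP_nonneg hπ _ _
  · exact zero_le_one
  · exact le_rfl

lemma sum_kern {π : X → Y → ℝ} {S : Finset J} {y : J → Y} (hy : ∀ j ∈ S, margY π (y j) ≠ 0)
    (x : J → X) (j : J) : ∑ u, kern π S x y j u = 1 := by
  unfold kern
  by_cases h : j ∈ S
  · simp only [h, if_true]
    exact sum_condP (hy j h)
  · simp [h]

lemma sum_prod_kern {π : X → Y → ℝ} {S : Finset J} {y : J → Y} (hy : ∀ j ∈ S, margY π (y j) ≠ 0)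
    (x : J → X) : ∑ u : J → X, ∏ j, kern π S x y j (u j) = 1 := by
  have h2 : ∏ j : J, ∑ u, kern π S x y j u = 1 := by
    simp [sum_kern hy x]
  rw [← h2, Finset.prod_univ_sum]
  simp only [Fintype.piFinset_univ]

/-- `cond` is a convex combination of values of `P`. -/
lemma cond_mem {π : X → Y → ℝ} (hπ : ∀ x y, 0 ≤ π x y) {S : Finset J} {y : J → Y}
    (hy : ∀ j ∈ S, margY π (y j) ≠ 0) {C : Set E} (hC : Convex ℝ C) {P : (J → X) → E}
    (hP : ∀ u, P u ∈ C) (x : J → X) : cond π S P x y ∈ C :=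
  hC.sum_mem (fun _ _ => Finset.prod_nonneg fun _ _ => kern_nonneg hπ _ _ _ _ _)
    (sum_prod_kern hy x) (fun _ _ => hP _)

lemma margY_of_supp {π : X → Y → ℝ} (hπ : ∀ x y, 0 ≤ π x y) {x : J → X} {y : J → Y}
    (h : ∀ j, π (x j) (y j) ≠ 0) (j : J) : margY π (y j) ≠ 0 :=
  margY_pos_of_pos hπ (h j)

/-- Support in the second coordinate for the swapped law. -/
lemma margX_of_supp {π : X → Y → ℝ} (hπ : ∀ x y, 0 ≤ π x y) {x : J → X} {y : J → Y}
    (h : ∀ j, π (x j) (y j) ≠ 0) (j : J) : margY (swapπ π) (x j) ≠ 0 :=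
  margY_pos_of_pos (π := swapπ π) (fun _ _ => hπ _ _) (h j)

/-! ### Bilinear expectations -/

variable [AddCommGroup 𝔸] [Module ℝ 𝔸] [AddCommGroup 𝔹] [Module ℝ 𝔹]

/-- One resampling step does not change a bilinear expectation if the other factor does not see
the coordinate. -/
lemma Ex_bilin_step {π : X → Y → ℝ} (hπ : ∀ x y, 0 ≤ π x y) (Φ : 𝔸 →ₗ[ℝ] 𝔹 →ₗ[ℝ] ℝ)
    {A : Finset J} {j : J} (hj : j ∉ A) (P : (J → X) → 𝔸) (Q : (J → X) → (J → Y) → 𝔹)
    (hQ : ∀ x y w, Q (update x j w) y = Q x y) :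
    Ex π (fun x y => Φ (cond π (insert j A) P x y) (Q x y))
      = Ex π (fun x y => Φ (cond π A P x y) (Q x y)) := by
  rw [← Ex_resample hπ j (fun x y => Φ (cond π A P x y) (Q x y))]
  refine congrArg (Ex π) (funext fun x => funext fun y => ?_)
  rw [cond_insert π hj]
  simp only [map_sum, map_smul, LinearMap.sum_apply, LinearMap.smul_apply, hQ]

/-- All the resampling of the first factor can be removed. -/
lemma Ex_bilin_cond {π : X → Y → ℝ} (hπ : ∀ x y, 0 ≤ π x y) (Φ : 𝔸 →ₗ[ℝ] 𝔹 →ₗ[ℝ] ℝ)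
    (A : Finset J) (P : (J → X) → 𝔸) (Q : (J → X) → (J → Y) → 𝔹)
    (hQ : ∀ j ∈ A, ∀ x y w, Q (update x j w) y = Q x y) :
    Ex π (fun x y => Φ (cond π A P x y) (Q x y)) = Ex π (fun x y => Φ (P x) (Q x y)) := by
  induction A using Finset.induction_on with
  | empty => simp only [cond_empty]
  | insert j A hj ih =>
    rw [Ex_bilin_step hπ Φ hj P Q (hQ j (Finset.mem_insert_self _ _))]
    exact ih fun i hi => hQ i (Finset.mem_insert_of_mem hi)

/-- **Conditional independence**: for disjoint `A`, `B`,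
`E⟨Cond^y_A P, Cond^x_B Q⟩ = E⟨P, Q⟩`. -/
lemma Ex_cond_cond {π : X → Y → ℝ} (hπ : ∀ x y, 0 ≤ π x y) (Φ : 𝔸 →ₗ[ℝ] 𝔹 →ₗ[ℝ] ℝ)
    {A B : Finset J} (hAB : Disjoint A B) (P : (J → X) → 𝔸) (Q : (J → Y) → 𝔹) :
    Ex π (fun x y => Φ (cond π A P x y) (cond (swapπ π) B Q y x))
      = Ex π (fun x y => Φ (P x) (Q y)) := by
  rw [Ex_bilin_cond hπ Φ A P (fun x y => cond (swapπ π) B Q y x)]
  · -- swap the roles
    rw [← Ex_swap π (fun x y => Φ (P x) (cond (swapπ π) B Q y x)),
      ← Ex_swap π (fun x y => Φ (P x) (Q y))]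
    have := Ex_bilin_cond (π := swapπ π) (fun _ _ => hπ _ _) Φ.flip B Q
      (fun y x => P x) (fun j _ y x w => rfl)
    simpa using this
  · intro j hj x y w
    exact cond_update_y (Finset.disjoint_left.mp hAB hj) Q y x w

end

end Crest.Agent.ParRep.ResampleH24
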